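import Mathlib
import Vale.Agent.Lib.P243.CapMain
import Vale.Agent.Lib.P243.R3.Defs

/-!
# P243, `r_3 > 1/3`: job J8, the strict model bound from one gain point
-/

namespace Vale.Agent.Lib.P243.R3

open MeasureTheory Set Vale.Agent.Lib.P243
open scoped ENNReal

/-- Area of a homothetic copy in the plane. -/
theorem M3s_hom_vol (c : ℝ × ℝ) (r : ℝ) (P : Set (ℝ × ℝ)) :
    volume ((fun q : ℝ × ℝ => c + r • (q - c)) '' P) = ENNReal.ofReal (r ^ 2) * volume P := by
  have h := Measure.addHaar_image_homothety (volume : Measure (ℝ × ℝ)) c r P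
  have he : (fun q : ℝ × ℝ => c + r • (q - c)) '' P = AffineMap.homothety c r '' P := by
    apply image_congr
    intro q _
    simp [AffineMap.homothety_apply, add_comm]
  rw [he, h]
  simp [abs_of_nonneg (sq_nonneg r)]

/-- The integral of `(1 - t / l) ^ 2` over `(0, l]`. -/
theorem M3s_int (l : ℝ) (hl : 0 < l) :
    ∫⁻ t in Ioc 0 l, ENNReal.ofReal ((1 - t / l) ^ 2) = ENNReal.ofReal (l / 3) := by
  have hcont : Continuous (fun t : ℝ => (1 - t / l) ^ 2) := by fun_prop
  rw [← ofReal_integral_eq_lintegral_ofReal]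
  · congr 1
    rw [← intervalIntegral.integral_of_le hl.le]
    have hderiv : ∀ t ∈ uIcc 0 l,
        HasDerivAt (fun t : ℝ => -(l / 3) * (1 - t / l) ^ 3) ((1 - t / l) ^ 2) t := by
      intro t _
      have h1 : HasDerivAt (fun t : ℝ => 1 - t / l) (-(1 / l)) t := by
        simpa using ((hasDerivAt_id t).div_const l).const_sub 1
      have h2 := (h1.pow 3).const_mul (-(l / 3))
      have h3 : HasDerivAt (fun t : ℝ => -(l / 3) * (1 - t / l) ^ 3)
          (-(l / 3) * (((3 : ℕ) : ℝ) * (1 - t / l) ^ (3 - 1) * -(1 / l))) t := h2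
      refine h3.congr_deriv ?_
      have e : (3 : ℕ) - 1 = 2 := rfl
      rw [e]
      push_cast
      field_simp
    rw [intervalIntegral.integral_eq_sub_of_hasDerivAt hderiv (hcont.intervalIntegrable _ _)]
    field_simp
    ring
  · exact hcont.integrableOn_Ioc
  · exact ae_of_all _ (fun t => sq_nonneg _)

/-- The comparison profile: area of the homothetic copy at height `t'`. -/
noncomputable def M3s_phi (l : ℝ) (a : ℝ≥0∞) : ℝ → ℝ≥0∞ :=
  (Ioc 0 l).indicator (fun t' => ENNReal.ofReal ((1 - t' / l) ^ 2) * a)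

theorem M3s_phi_int (l : ℝ) (hl : 0 < l) (a : ℝ≥0∞) (ha : a ≠ ⊤) :
    ∫⁻ t' in Ioi (0 : ℝ), M3s_phi l a t' = ENNReal.ofReal (l / 3) * a := by
  unfold M3s_phi
  rw [lintegral_indicator measurableSet_Ioc, Measure.restrict_restrict measurableSet_Ioc,
    inter_eq_left.2 (fun x hx => hx.1), lintegral_mul_const' _ _ ha, M3s_int l hl]

/-- Job J8: the strict model bound `l * area < 3 vol` from one gain point. -/
theorem M3s_model_lt {K : Set (ℝ × (ℝ × ℝ))} (hK : IsCompact K) (hc : Convex ℝ K) {z0 l : ℝ}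
    {o : ℝ × ℝ} (hl : 0 < l) (h0 : (z0, o) ∈ K) (h1 : (z0 + l, o) ∈ K)
    (hP : volume (Prod.snd '' K) ≠ 0)
    (hgain : ∃ y ∈ Prod.snd '' K, ∃ t : ℝ, 0 < t ∧ t < Cap.len K y ∧
      (l ≤ t ∨ ∀ q ∈ Prod.snd '' K, y ≠ o + (1 - t / l) • (q - o))) :
    ENNReal.ofReal l * volume (Prod.snd '' K) < 3 * volume K := by
  obtain ⟨y, hy, t, ht0, hty, hcase⟩ := hgain
  set P : Set (ℝ × ℝ) := Prod.snd '' K with hPdef
  have hPc : IsCompact P := hK.image continuous_snd
  have hPv : Convex ℝ P := by
    rintro _ ⟨k1, hk1, rfl⟩ _ ⟨k2, hk2, rfl⟩ a b ha hb hab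
    exact ⟨a • k1 + b • k2, hc hk1 hk2 ha hb hab, rfl⟩
  have hoP : o ∈ P := ⟨(z0, o), h0, rfl⟩
  have hPfin : volume P ≠ ⊤ := hPc.measure_lt_top.ne
  -- the chord over `o` has length at least `l`
  have hlo : l ≤ Cap.len K o := by
    have hsub : Icc z0 (z0 + l) ⊆ Cap.fib K o := by
      intro ζ hζ
      have hθ0 : 0 ≤ (ζ - z0) / l := div_nonneg (by linarith [hζ.1]) hl.le
      have hθ1 : (ζ - z0) / l ≤ 1 := by rw [div_le_one hl]; linarith [hζ.2]
      have hmem := hc h0 h1 (sub_nonneg.2 hθ1) hθ0 (by ring)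
      have he : (1 - (ζ - z0) / l) • ((z0, o) : ℝ × (ℝ × ℝ))
          + ((ζ - z0) / l) • ((z0 + l, o) : ℝ × (ℝ × ℝ)) = (ζ, o) := by
        refine Prod.ext ?_ ?_
        · simp only [Prod.fst_add, Prod.smul_fst, smul_eq_mul]
          field_simp
          ring
        · simp only [Prod.snd_add, Prod.smul_snd]
          rw [← add_smul, sub_add_cancel, one_smul]
      rw [he] at hmem
      exact hmem
    have hv : ENNReal.ofReal l ≤ volume (Cap.fib K o) := by
      have := measure_mono (μ := volume) hsub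
      rwa [Real.volume_Icc, add_sub_cancel_left] at this
    exact (ENNReal.ofReal_le_iff_le_toReal (Cap.fib_fin hK o)).1 hv
  -- homothetic copies of `P` about `o` lie in the level sets
  have hH : ∀ t' : ℝ, 0 ≤ t' → t' ≤ l →
      (fun q : ℝ × ℝ => o + (1 - t' / l) • (q - o)) '' P ⊆ Cap.lev K t' := by
    rintro t' ht'0 ht'l _ ⟨q, hq, rfl⟩
    have hθ0 : 0 ≤ 1 - t' / l := by rw [sub_nonneg, div_le_one hl]; exact ht'l
    have hθ1 : 1 - t' / l ≤ 1 := by linarith [div_nonneg ht'0 hl.le]
    have he : o + (1 - t' / l) • (q - o) = (1 - (1 - t' / l)) • o + (1 - t' / l) • q := by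
      module
    show o + (1 - t' / l) • (q - o) ∈ Cap.lev K t'
    rw [he]
    refine ⟨hPv hoP hq (by linarith) hθ0 (by ring), ?_⟩
    have hconc := Cap.len_concave hK hc hoP hq (1 - t' / l) hθ0 hθ1
    have h3 : t' ≤ (1 - (1 - t' / l)) * Cap.len K o := by
      have e : 1 - (1 - t' / l) = t' / l := by ring
      rw [e]
      calc t' = t' / l * l := by field_simp
        _ ≤ t' / l * Cap.len K o :=
            mul_le_mul_of_nonneg_left hlo (div_nonneg ht'0 hl.le)
    have h4 : 0 ≤ (1 - t' / l) * Cap.len K q := mul_nonneg hθ0 (Cap.len_nonneg q)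
    linarith
  have hbase : ∀ t' : ℝ, 0 < t' → M3s_phi l (volume P) t' ≤ volume (Cap.lev K t') := by
    intro t' ht'
    unfold M3s_phi
    by_cases hm : t' ∈ Ioc 0 l
    · rw [indicator_of_mem hm, ← M3s_hom_vol]
      exact measure_mono (hH t' ht'.le hm.2)
    · rw [indicator_of_notMem hm]; exact zero_le
  -- the gain set
  obtain ⟨D, hD⟩ := (Metric.isBounded_iff_subset_closedBall y).1 hPc.isBounded
  have hD0 : 0 ≤ D := by
    have := hD hy
    rw [Metric.mem_closedBall, dist_self] at this
    exact this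
  have hfy0 : 0 < Cap.len K y := lt_trans ht0 hty
  have htt2 : t < (t + Cap.len K y) / 2 := by linarith
  have hS : ∀ θ : ℝ, 0 < θ → θ ≤ (Cap.len K y - t) / (2 * Cap.len K y) →
      (∀ t' ≤ (t + Cap.len K y) / 2,
        (fun q : ℝ × ℝ => y + θ • (q - y)) '' P ⊆ Cap.lev K t') ∧
      (fun q : ℝ × ℝ => y + θ • (q - y)) '' P ⊆ Metric.closedBall y (θ * D) := by
    intro θ hθ0 hθ
    have hθ1 : θ ≤ 1 := by
      have : (Cap.len K y - t) / (2 * Cap.len K y) ≤ 1 := by
        rw [div_le_one (by positivity)]; linarith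
      linarith
    have hmem : ∀ q ∈ P, y + θ • (q - y) ∈ P
        ∧ (t + Cap.len K y) / 2 ≤ Cap.len K (y + θ • (q - y)) := by
      intro q hq
      have he : y + θ • (q - y) = (1 - θ) • y + θ • q := by
        module
      rw [he]
      refine ⟨hPv hy hq (by linarith) hθ0.le (by ring), ?_⟩
      have hconc := Cap.len_concave hK hc hy hq θ hθ0.le hθ1
      have h4 : 0 ≤ θ * Cap.len K q := mul_nonneg hθ0.le (Cap.len_nonneg q)
      have h5 : θ * Cap.len K y ≤ (Cap.len K y - t) / 2 := by
        calc θ * Cap.len K y ≤ (Cap.len K y - t) / (2 * Cap.len K y) * Cap.len K y :=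
              mul_le_mul_of_nonneg_right hθ hfy0.le
          _ = (Cap.len K y - t) / 2 := by field_simp
      linarith
    refine ⟨?_, ?_⟩
    · rintro t' ht' _ ⟨q, hq, rfl⟩
      exact ⟨(hmem q hq).1, ht'.trans (hmem q hq).2⟩
    · rintro _ ⟨q, hq, rfl⟩
      show y + θ • (q - y) ∈ Metric.closedBall y (θ * D)
      rw [Metric.mem_closedBall, dist_eq_norm]
      have e : y + θ • (q - y) - y = θ • (q - y) := by abel
      rw [e, norm_smul, Real.norm_eq_abs, abs_of_pos hθ0]
      have := hD hq
      rw [Metric.mem_closedBall, dist_eq_norm] at this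
      exact mul_le_mul_of_nonneg_left this hθ0.le
  -- the pointwise gain on a set of heights of positive length
  have key : ∃ (c : ℝ≥0∞) (J : Set ℝ), c ≠ 0 ∧ MeasurableSet J ∧ J ⊆ Ioi 0 ∧ volume J ≠ 0 ∧
      ∀ t' ∈ Ioi (0 : ℝ),
        M3s_phi l (volume P) t' + J.indicator (fun _ => c) t' ≤ volume (Cap.lev K t') := by
    by_cases htl : l ≤ t
    · have hθ0 : 0 < (Cap.len K y - t) / (2 * Cap.len K y) := by
        apply div_pos <;> linarith
      obtain ⟨hSlev, -⟩ := hS _ hθ0 le_rfl
      refine ⟨volume ((fun q : ℝ × ℝ =>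
          y + ((Cap.len K y - t) / (2 * Cap.len K y)) • (q - y)) '' P),
        Ioc l ((t + Cap.len K y) / 2), ?_, measurableSet_Ioc,
        fun x hx => lt_trans hl hx.1, ?_, ?_⟩
      · rw [M3s_hom_vol]
        exact mul_ne_zero (ENNReal.ofReal_pos.2 (by positivity)).ne' hP
      · rw [Real.volume_Ioc]
        exact (ENNReal.ofReal_pos.2 (by linarith)).ne'
      · intro t' ht'
        by_cases hJ : t' ∈ Ioc l ((t + Cap.len K y) / 2)
        · rw [indicator_of_mem hJ]
          have hz : M3s_phi l (volume P) t' = 0 := by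
            unfold M3s_phi
            exact indicator_of_notMem (fun h => absurd h.2 (not_le.2 hJ.1)) _
          rw [hz, zero_add]
          exact measure_mono (hSlev t' hJ.2)
        · rw [indicator_of_notMem hJ, add_zero]
          exact hbase t' ht'
    · have htl' : t < l := not_le.1 htl
      have hne : ∀ q ∈ P, y ≠ o + (1 - t / l) • (q - o) := hcase.resolve_left htl
      have hHtc : IsClosed ((fun q : ℝ × ℝ => o + (1 - t / l) • (q - o)) '' P) :=
        (hPc.image (by fun_prop)).isClosed
      have hyH : y ∈ ((fun q : ℝ × ℝ => o + (1 - t / l) • (q - o)) '' P)ᶜ := by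
        rintro ⟨q, hq, he⟩
        exact hne q hq he.symm
      obtain ⟨ε, hε, hball⟩ := Metric.isOpen_iff.1 hHtc.isOpen_compl y hyH
      have hθ0 : 0 < min ((Cap.len K y - t) / (2 * Cap.len K y)) (ε / (2 * (D + 1))) :=
        lt_min (by apply div_pos <;> linarith) (by positivity)
      obtain ⟨hSlev, hSball⟩ := hS _ hθ0 (min_le_left _ _)
      have hθD : min ((Cap.len K y - t) / (2 * Cap.len K y)) (ε / (2 * (D + 1))) * D < ε := by
        have h1 : min ((Cap.len K y - t) / (2 * Cap.len K y)) (ε / (2 * (D + 1)))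
            ≤ ε / (2 * (D + 1)) := min_le_right _ _
        calc min ((Cap.len K y - t) / (2 * Cap.len K y)) (ε / (2 * (D + 1))) * D
            ≤ ε / (2 * (D + 1)) * D := mul_le_mul_of_nonneg_right h1 hD0
          _ = ε * (D / (2 * (D + 1))) := by ring
          _ < ε * 1 := by
              apply mul_lt_mul_of_pos_left _ hε
              rw [div_lt_one (by positivity)]; linarith
          _ = ε := mul_one ε
      have hSdisj : ∀ t', t ≤ t' → t' ≤ l →
          Disjoint ((fun q : ℝ × ℝ => o + (1 - t' / l) • (q - o)) '' P)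
            ((fun q : ℝ × ℝ => y + min ((Cap.len K y - t) / (2 * Cap.len K y))
              (ε / (2 * (D + 1))) • (q - y)) '' P) := by
        intro t' htt' ht'l
        rw [Set.disjoint_left]
        rintro _ ⟨q, hq, rfl⟩ hmemS
        have hinHt : o + (1 - t' / l) • (q - o)
            ∈ (fun q : ℝ × ℝ => o + (1 - t / l) • (q - o)) '' P := by
          have hpos : 0 < 1 - t / l := by rw [sub_pos, div_lt_one hl]; exact htl'
          have hρ0 : 0 ≤ (1 - t' / l) / (1 - t / l) :=
            div_nonneg (by rw [sub_nonneg, div_le_one hl]; exact ht'l) hpos.le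
          have hρ1 : (1 - t' / l) / (1 - t / l) ≤ 1 := by
            rw [div_le_one hpos]
            have : t / l ≤ t' / l := div_le_div_of_nonneg_right htt' hl.le
            linarith
          refine ⟨(1 - (1 - t' / l) / (1 - t / l)) • o + ((1 - t' / l) / (1 - t / l)) • q,
            hPv hoP hq (by linarith) hρ0 (by ring), ?_⟩
          show o + (1 - t / l) • ((1 - (1 - t' / l) / (1 - t / l)) • o
            + ((1 - t' / l) / (1 - t / l)) • q - o) = o + (1 - t' / l) • (q - o)
          have e : (1 - (1 - t' / l) / (1 - t / l)) • o + ((1 - t' / l) / (1 - t / l)) • q - o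
              = ((1 - t' / l) / (1 - t / l)) • (q - o) := by
            module
          rw [e, smul_smul, mul_div_cancel₀ _ hpos.ne']
        have hb : o + (1 - t' / l) • (q - o) ∈ Metric.ball y ε := by
          have := hSball hmemS
          rw [Metric.mem_closedBall] at this
          rw [Metric.mem_ball]; linarith
        exact hball hb hinHt
      refine ⟨volume ((fun q : ℝ × ℝ => y + min ((Cap.len K y - t) / (2 * Cap.len K y))
          (ε / (2 * (D + 1))) • (q - y)) '' P),
        Icc t (min ((t + Cap.len K y) / 2) l), ?_, measurableSet_Icc,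
        fun x hx => lt_of_lt_of_le ht0 hx.1, ?_, ?_⟩
      · rw [M3s_hom_vol]
        exact mul_ne_zero (ENNReal.ofReal_pos.2 (by positivity)).ne' hP
      · rw [Real.volume_Icc]
        exact (ENNReal.ofReal_pos.2 (sub_pos.2 (lt_min htt2 htl'))).ne'
      · intro t' ht'
        by_cases hJ : t' ∈ Icc t (min ((t + Cap.len K y) / 2) l)
        · have ht'l : t' ≤ l := hJ.2.trans (min_le_right _ _)
          have ht't2 : t' ≤ (t + Cap.len K y) / 2 := hJ.2.trans (min_le_left _ _)
          rw [indicator_of_mem hJ]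
          have hφ : M3s_phi l (volume P) t'
              = volume ((fun q : ℝ × ℝ => o + (1 - t' / l) • (q - o)) '' P) := by
            unfold M3s_phi
            rw [indicator_of_mem (show t' ∈ Ioc 0 l from ⟨ht', ht'l⟩), M3s_hom_vol]
          rw [hφ, ← measure_union (hSdisj t' hJ.1 ht'l)
            (hPc.image (by fun_prop)).measurableSet]
          exact measure_mono (union_subset (hH t' (le_of_lt ht') ht'l) (hSlev t' ht't2))
        · rw [indicator_of_notMem hJ, add_zero]
          exact hbase t' ht'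
  obtain ⟨c, J, hc0, hJm, hJsub, hJ0, hkey⟩ := key
  have hint : ∫⁻ t' in Ioi (0 : ℝ), (M3s_phi l (volume P) t' + J.indicator (fun _ => c) t')
      ≤ volume K := by
    rw [Cap.vol_eq hK]
    exact setLIntegral_mono' measurableSet_Ioi hkey
  have hsplit : ∫⁻ t' in Ioi (0 : ℝ), (M3s_phi l (volume P) t' + J.indicator (fun _ => c) t')
      = ENNReal.ofReal (l / 3) * volume P + c * volume J := by
    rw [lintegral_add_right _ (measurable_const.indicator hJm), M3s_phi_int l hl _ hPfin,
      lintegral_indicator_const hJm, Measure.restrict_apply hJm, inter_eq_left.2 hJsub]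
  have hpos : c * volume J ≠ 0 := mul_ne_zero hc0 hJ0
  have hfin : ENNReal.ofReal (l / 3) * volume P ≠ ⊤ :=
    ENNReal.mul_ne_top ENNReal.ofReal_ne_top hPfin
  have h3 : ENNReal.ofReal l = 3 * ENNReal.ofReal (l / 3) := by
    rw [show (3 : ℝ≥0∞) = ENNReal.ofReal 3 by simp, ← ENNReal.ofReal_mul (by norm_num)]
    congr 1
    ring
  have hA : 3 * (ENNReal.ofReal (l / 3) * volume P) ≠ ⊤ := ENNReal.mul_ne_top (by simp) hfin
  have hB : 3 * (c * volume J) ≠ 0 := mul_ne_zero (by simp) hpos
  calc ENNReal.ofReal l * volume P = 3 * (ENNReal.ofReal (l / 3) * volume P) := by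
        rw [h3, mul_assoc]
    _ < 3 * (ENNReal.ofReal (l / 3) * volume P) + 3 * (c * volume J) :=
        ENNReal.lt_add_right hA hB
    _ = 3 * (ENNReal.ofReal (l / 3) * volume P + c * volume J) := by rw [mul_add]
    _ ≤ 3 * volume K := by
        rw [← hsplit]
        exact mul_le_mul_right hint 3

end Vale.Agent.Lib.P243.R3
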