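import Mathlib
import Vale.Agent.Lib.P243.R3.Defs

/-!
# P243, `r_3 > 1/3`: module M9 (compactness of the normalised family)
-/

namespace Vale.Agent.Lib.P243.R3.H47

open MeasureTheory Set Vale.Agent.Lib.P243.R3
open scoped Pointwise

/-- A ball inside the standard simplex. -/
theorem M9a_simp3_ball : ∃ (c : E3) (ρ : ℝ), 0 < ρ ∧ Metric.closedBall c ρ ⊆ Simp3 := by
  refine ⟨WithLp.toLp 2 (fun _ => (1 / 4 : ℝ)), 1 / 12, by norm_num, ?_⟩
  intro x hx
  rw [Metric.mem_closedBall, dist_eq_norm] at hx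
  have h : ∀ i : Fin 3, |x i - 1 / 4| ≤ 1 / 12 := by
    intro i
    have h1 := PiLp.norm_apply_le (x - WithLp.toLp 2 (fun _ => (1 / 4 : ℝ))) i
    simp only [PiLp.sub_apply, Real.norm_eq_abs] at h1
    exact h1.trans hx
  have h0 := abs_le.1 (h 0)
  have h1 := abs_le.1 (h 1)
  have h2 := abs_le.1 (h 2)
  refine ⟨fun i => ?_, by linarith [h0.2, h1.2, h2.2]⟩
  have := abs_le.1 (h i)
  linarith [this.1]

/-- Two convex bodies containing a common ball and close in the Hausdorff distance are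
sandwiched between homothetic copies of each other. -/
theorem M9b_sandwich {Ks K : Set E3} (hKs : Body Ks) (hK : Body K) (c : E3) {ρ : ℝ}
    (hρ : 0 < ρ) (hb1 : Metric.closedBall c ρ ⊆ Ks) (hb2 : Metric.closedBall c ρ ⊆ K) {η : ℝ}
    (hη0 : 0 < η) (hη1 : η < 1) (hd : Metric.hausdorffDist K Ks < η * ρ) :
    hom c (1 - η) '' Ks ⊆ K ∧ K ⊆ hom c (1 + η) '' Ks := by
  have hKne : K.Nonempty := hK.int.mono interior_subset
  have hKsne : Ks.Nonempty := hKs.int.mono interior_subset
  have hfin : Metric.hausdorffEDist K Ks ≠ ⊤ :=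
    Metric.hausdorffEDist_ne_top_of_nonempty_of_bounded hKne hKsne hK.compact.isBounded
      hKs.compact.isBounded
  have hfin' : Metric.hausdorffEDist Ks K ≠ ⊤ := by
    rw [Metric.hausdorffEDist_comm]; exact hfin
  have hd' : Metric.hausdorffDist Ks K < η * ρ := by
    rw [Metric.hausdorffDist_comm]; exact hd
  have h1η : (0 : ℝ) < 1 + η := by linarith
  -- key: a point of one body, shrunk towards `c`, lies in the other
  have key : ∀ {A B : Set E3}, Convex ℝ B → Metric.closedBall c ρ ⊆ B →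
      Metric.hausdorffDist A B < η * ρ → Metric.hausdorffEDist A B ≠ ⊤ →
      ∀ x ∈ A, c + (1 + η)⁻¹ • (x - c) ∈ B := by
    intro A B hBv hbB hAB hfinAB x hx
    obtain ⟨y, hy, hxy⟩ := Metric.exists_dist_lt_of_hausdorffDist_lt hx hAB hfinAB
    have hz : c + η⁻¹ • (x - y) ∈ B := by
      apply hbB
      rw [Metric.mem_closedBall, dist_eq_norm]
      have : c + η⁻¹ • (x - y) - c = η⁻¹ • (x - y) := by abel
      rw [this, norm_smul, Real.norm_eq_abs, abs_of_pos (inv_pos.2 hη0), ← dist_eq_norm]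
      rw [inv_mul_le_iff₀ hη0]
      exact hxy.le
    have hcomb : c + (1 + η)⁻¹ • (x - c)
        = (1 + η)⁻¹ • y + (η * (1 + η)⁻¹) • (c + η⁻¹ • (x - y)) := by
      have e1 : (η * (1 + η)⁻¹) • (c + η⁻¹ • (x - y))
          = (η * (1 + η)⁻¹) • c + (1 + η)⁻¹ • (x - y) := by
        rw [smul_add, smul_smul]
        congr 2
        field_simp
      rw [e1]
      have e2 : c = (1 + η)⁻¹ • c + (η * (1 + η)⁻¹) • c := by
        rw [← add_smul]
        have : (1 + η)⁻¹ + η * (1 + η)⁻¹ = 1 := by field_simp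
        rw [this, one_smul]
      nth_rewrite 1 [e2]
      simp only [smul_sub]
      abel
    rw [hcomb]
    refine hBv hy hz (inv_pos.2 h1η).le (mul_nonneg hη0.le (inv_pos.2 h1η).le) ?_
    field_simp
  constructor
  · rintro _ ⟨x, hx, rfl⟩
    have h := key hK.conv hb2 hd' hfin' x hx
    have hc : c ∈ K := hb2 (Metric.mem_closedBall_self hρ.le)
    have hcomb : hom c (1 - η) x
        = (η * η) • c + (1 - η * η) • (c + (1 + η)⁻¹ • (x - c)) := by
      unfold hom
      have e1 : (1 - η * η) • (c + (1 + η)⁻¹ • (x - c))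
          = (1 - η * η) • c + (1 - η) • (x - c) := by
        rw [smul_add, smul_smul]
        congr 2
        field_simp
        ring
      rw [e1, ← add_assoc, ← add_smul]
      have : η * η + (1 - η * η) = 1 := by ring
      rw [this, one_smul]
    rw [hcomb]
    refine hK.conv hc h (mul_nonneg hη0.le hη0.le) ?_ (by ring)
    nlinarith
  · intro x hx
    have h := key hKs.conv hb1 hd hfin x hx
    refine ⟨c + (1 + η)⁻¹ • (x - c), h, ?_⟩
    unfold hom
    have : c + (1 + η)⁻¹ • (x - c) - c = (1 + η)⁻¹ • (x - c) := by abel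
    rw [this, smul_smul, mul_inv_cancel₀ h1η.ne', one_smul]
    abel

/-- The cube `[-1, 1]^3` is compact. -/
theorem cube3_isCompact : IsCompact Cube3 := by
  apply Metric.isCompact_of_isClosed_isBounded
  · have : Cube3 = ⋂ i : Fin 3, {x : E3 | |x i| ≤ 1} := by
      ext x; simp [Cube3]
    rw [this]
    refine isClosed_iInter fun i => isClosed_le ?_ continuous_const
    exact continuous_abs.comp (EuclideanSpace.proj i).continuous
  · rw [Metric.isBounded_iff_subset_closedBall (0 : E3)]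
    refine ⟨3, fun x hx => ?_⟩
    rw [mem_closedBall_zero_iff, EuclideanSpace.norm_eq]
    refine Real.sqrt_le_iff.2 ⟨by norm_num, ?_⟩
    have hx' : ∀ i : Fin 3, ‖x i‖ ^ 2 ≤ 1 := by
      intro i
      rw [Real.norm_eq_abs, sq_abs, sq_le_one_iff_abs_le_one]
      exact hx i
    rw [Fin.sum_univ_three]
    linarith [hx' 0, hx' 1, hx' 2]

/-- Blaschke selection for the normalised family. -/
theorem M9c_blaschke (Kseq : ℕ → Set E3)
    (h : ∀ n, Body (Kseq n) ∧ Simp3 ⊆ Kseq n ∧ Kseq n ⊆ Cube3) :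
    ∃ Ks : Set E3, Body Ks ∧ Simp3 ⊆ Ks ∧ Ks ⊆ Cube3 ∧ ∃ φ : ℕ → ℕ, StrictMono φ ∧
      Filter.Tendsto (fun n => Metric.hausdorffDist (Kseq (φ n)) Ks) Filter.atTop (nhds 0) := by
  classical
  let Kc : ℕ → TopologicalSpace.NonemptyCompacts E3 := fun n =>
    ⟨⟨Kseq n, (h n).1.compact⟩, (h n).1.int.mono interior_subset⟩
  have hmem : ∀ n, Kc n ∈ {L : TopologicalSpace.NonemptyCompacts E3 | (L : Set E3) ⊆ Cube3} :=
    fun n => (h n).2.2
  obtain ⟨a, ha, φ, hφ, hlim⟩ :=
    (TopologicalSpace.NonemptyCompacts.isCompact_subsets_of_isCompact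
      cube3_isCompact).tendsto_subseq hmem
  have hd : Filter.Tendsto (fun n => Metric.hausdorffDist (Kseq (φ n)) (a : Set E3))
      Filter.atTop (nhds 0) := tendsto_iff_dist_tendsto_zero.1 hlim
  have hane : (a : Set E3).Nonempty := a.nonempty
  have hac : IsCompact (a : Set E3) := a.isCompact
  have hfin : ∀ n, Metric.hausdorffEDist (Kseq (φ n)) (a : Set E3) ≠ ⊤ := fun n =>
    Metric.hausdorffEDist_ne_top_of_nonempty_of_bounded ((h (φ n)).1.int.mono interior_subset)
      hane (h (φ n)).1.compact.isBounded hac.isBounded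
  -- membership criterion
  have hcrit : ∀ z : E3, (∀ n, Metric.infDist z (a : Set E3)
      ≤ 2 * Metric.hausdorffDist (Kseq (φ n)) (a : Set E3)) → z ∈ (a : Set E3) := by
    intro z hz
    rw [hac.isClosed.mem_iff_infDist_zero hane]
    have h0 : Metric.infDist z (a : Set E3) ≤ 0 := by
      have h2 : Filter.Tendsto (fun n => 2 * Metric.hausdorffDist (Kseq (φ n)) (a : Set E3))
          Filter.atTop (nhds 0) := by
        simpa using hd.const_mul 2
      exact ge_of_tendsto' h2 hz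
    exact le_antisymm h0 Metric.infDist_nonneg
  have hsimp : Simp3 ⊆ (a : Set E3) := by
    intro x hx
    apply hcrit
    intro n
    have h1 := Metric.infDist_le_infDist_add_hausdorffDist (x := x) (hfin n)
    have h2 : Metric.infDist x (Kseq (φ n)) = 0 :=
      Metric.infDist_zero_of_mem ((h (φ n)).2.1 hx)
    have h3 : 0 ≤ Metric.hausdorffDist (Kseq (φ n)) (a : Set E3) := Metric.hausdorffDist_nonneg
    linarith
  have hconv : Convex ℝ (a : Set E3) := by
    intro x hx y hy s t hs ht hst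
    apply hcrit
    intro n
    have hfin' : Metric.hausdorffEDist (a : Set E3) (Kseq (φ n)) ≠ ⊤ := by
      rw [Metric.hausdorffEDist_comm]; exact hfin n
    have hKn := (h (φ n)).1
    have hKne : (Kseq (φ n)).Nonempty := hKn.int.mono interior_subset
    have happ : ∀ w ∈ (a : Set E3), ∃ w' ∈ Kseq (φ n),
        dist w w' ≤ Metric.hausdorffDist (Kseq (φ n)) (a : Set E3) := by
      intro w hw
      obtain ⟨w', hw', he⟩ := hKn.compact.exists_infDist_eq_dist hKne w
      refine ⟨w', hw', ?_⟩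
      rw [← he]
      have h1 := Metric.infDist_le_infDist_add_hausdorffDist (x := w) hfin'
      rw [Metric.infDist_zero_of_mem hw, zero_add, Metric.hausdorffDist_comm] at h1
      exact h1
    obtain ⟨x', hx', hxx⟩ := happ x hx
    obtain ⟨y', hy', hyy⟩ := happ y hy
    have hz' : s • x' + t • y' ∈ Kseq (φ n) := hKn.conv hx' hy' hs ht hst
    have h1 : dist (s • x + t • y) (s • x' + t • y')
        ≤ Metric.hausdorffDist (Kseq (φ n)) (a : Set E3) := by
      calc dist (s • x + t • y) (s • x' + t • y')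
          ≤ dist (s • x) (s • x') + dist (t • y) (t • y') := dist_add_add_le _ _ _ _
        _ = s * dist x x' + t * dist y y' := by
            rw [dist_smul₀, dist_smul₀, Real.norm_eq_abs, Real.norm_eq_abs, abs_of_nonneg hs,
              abs_of_nonneg ht]
        _ ≤ s * Metric.hausdorffDist (Kseq (φ n)) (a : Set E3)
            + t * Metric.hausdorffDist (Kseq (φ n)) (a : Set E3) := by gcongr
        _ = Metric.hausdorffDist (Kseq (φ n)) (a : Set E3) := by rw [← add_mul, hst, one_mul]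
    have h2 : Metric.infDist (s • x + t • y) (a : Set E3)
        ≤ Metric.infDist (s • x' + t • y') (a : Set E3)
          + dist (s • x + t • y) (s • x' + t • y') := Metric.infDist_le_infDist_add_dist
    have h3 := Metric.infDist_le_infDist_add_hausdorffDist (x := s • x' + t • y') (hfin n)
    rw [Metric.infDist_zero_of_mem hz', zero_add] at h3
    linarith
  obtain ⟨c, ρ, hρ, hball⟩ := M9a_simp3_ball
  refine ⟨a, ⟨hconv, hac, ⟨c, ?_⟩⟩, hsimp, ha, φ, hφ, hd⟩
  exact mem_interior.2 ⟨Metric.ball c ρ,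
    (Metric.ball_subset_closedBall.trans hball).trans hsimp, Metric.isOpen_ball,
    Metric.mem_ball_self hρ⟩

/-- A calibration stays a calibration when the constant is enlarged. -/
theorem M7b_good_mono {K : Set E3} (hK : Body K) {g : E3 → ℝ} {Θ Θ' : ℝ} (hG : Good K g Θ)
    (h : Θ ≤ Θ') : Good K g Θ' := by
  refine ⟨hG.1, hG.2.1, fun p hp q hq => (hG.2.2 p hp q hq).trans ?_⟩
  have h0 : 0 ≤ ∫ x in K, g x :=
    setIntegral_nonneg hK.compact.measurableSet (fun x _ => by linarith [(hG.2.1 x).1])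
  exact mul_le_mul_of_nonneg_right h h0

/-- A uniform calibration constant below `3` on the normalised family, from the per-body
statement (M6) and the transfer lemma (M7), taken here as hypotheses. -/
theorem M9d_exists_uniform
    (hM6 : ∀ {K : Set E3}, Body K → ∃ (g : E3 → ℝ) (Θ : ℝ), 0 < Θ ∧ Θ < 3 ∧ Good K g Θ)
    (hM7 : ∀ {Ks K : Set E3}, Body Ks → Body K → ∀ (c : E3) {η : ℝ}, 0 < η → η ≤ 1 / 24 →
      hom c (1 - η) '' Ks ⊆ K → K ⊆ hom c (1 + η) '' Ks → ∀ {g : E3 → ℝ} {Θ : ℝ}, 0 < Θ →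
      Good Ks g Θ → Good K (fun x => g (hom c (1 + η)⁻¹ x)) (Θ / (1 - 12 * η))) :
    ∃ Θ0 : ℝ, 0 < Θ0 ∧ Θ0 < 3 ∧
      ∀ K : Set E3, Body K → Simp3 ⊆ K → K ⊆ Cube3 → ∃ g : E3 → ℝ, Good K g Θ0 := by
  by_contra hcon
  push Not at hcon
  have hΘn : ∀ n : ℕ, (0 : ℝ) < 3 - 1 / ((n : ℝ) + 1) ∧ 3 - 1 / ((n : ℝ) + 1) < 3 := by
    intro n
    have hpos : (0 : ℝ) < (n : ℝ) + 1 := by positivity
    have h1 : 1 / ((n : ℝ) + 1) ≤ 1 := by
      rw [div_le_one hpos]; linarith [Nat.cast_nonneg (α := ℝ) n]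
    have h2 : 0 < 1 / ((n : ℝ) + 1) := by positivity
    constructor <;> linarith
  choose Kseq hKseq using fun n : ℕ => hcon (3 - 1 / ((n : ℝ) + 1)) (hΘn n).1 (hΘn n).2
  obtain ⟨Ks, hKs, hsKs, hKsc, φ, hφ, hlim⟩ :=
    M9c_blaschke Kseq (fun n => ⟨(hKseq n).1, (hKseq n).2.1, (hKseq n).2.2.1⟩)
  obtain ⟨g, Θ, hΘ0, hΘ3, hG⟩ := hM6 hKs
  obtain ⟨c, ρ, hρ, hball⟩ := M9a_simp3_ball
  set η : ℝ := min (1 / 24) ((1 - Θ / 3) / 24) with hη_def
  have hη0 : 0 < η := by
    rw [hη_def]
    refine lt_min (by norm_num) ?_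
    linarith
  have hη24 : η ≤ 1 / 24 := min_le_left _ _
  have hη2 : η ≤ (1 - Θ / 3) / 24 := min_le_right _ _
  have hden : 0 < 1 - 12 * η := by linarith
  have hΘ' : Θ / (1 - 12 * η) < 3 := by
    rw [div_lt_iff₀ hden]
    nlinarith
  obtain ⟨N, hN⟩ := exists_nat_one_div_lt (show (0 : ℝ) < 3 - Θ / (1 - 12 * η) by linarith)
  have hev : ∀ᶠ n in Filter.atTop, Metric.hausdorffDist (Kseq (φ n)) Ks < η * ρ :=
    (tendsto_order.1 hlim).2 _ (mul_pos hη0 hρ)
  obtain ⟨N', hN'⟩ := Filter.eventually_atTop.1 hev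
  have hK := hKseq (φ (max N N'))
  have hsand := M9b_sandwich hKs hK.1 c hρ (hball.trans hsKs) (hball.trans hK.2.1) hη0
    (by linarith) (hN' (max N N') (le_max_right _ _))
  have hG' := hM7 hKs hK.1 c hη0 hη24 hsand.1 hsand.2 hΘ0 hG
  have hle : Θ / (1 - 12 * η) ≤ 3 - 1 / ((φ (max N N') : ℝ) + 1) := by
    have h1 : (N : ℝ) ≤ φ (max N N') := by
      exact_mod_cast (le_max_left N N').trans (hφ.id_le (max N N'))
    have h2 : 1 / ((φ (max N N') : ℝ) + 1) ≤ 1 / ((N : ℝ) + 1) := by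
      apply one_div_le_one_div_of_le (by positivity)
      linarith
    linarith
  exact hK.2.2.2 _ (M7b_good_mono hK.1 hG' hle)

end Vale.Agent.Lib.P243.R3.H47
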