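import Mathlib
import Vale.Agent.Lib.P243.CapMain
import Vale.Agent.Lib.P243.R3.Defs
import Vale.Agent.Lib.P243.R3.helper47.ModelLt

/-!
# P243, `r_3 > 1/3`: job J7, the model bound `l * area ≤ 3 vol` (spare copy, helper47;
namespace `H47` so that it cannot clash with the copy in `helper22/ModelLe.lean`)
-/

namespace Vale.Agent.Lib.P243.R3.H47

open MeasureTheory Set Vale.Agent.Lib.P243 Vale.Agent.Lib.P243.R3
open scoped ENNReal

/-- Area of a homothetic copy in the plane. -/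
theorem M3l_hom_vol (c : ℝ × ℝ) (r : ℝ) (P : Set (ℝ × ℝ)) :
    volume ((fun q : ℝ × ℝ => c + r • (q - c)) '' P) = ENNReal.ofReal (r ^ 2) * volume P :=
  M3s_hom_vol c r P

/-- The integral of `(1 - t / l) ^ 2` over `(0, l]`. -/
theorem M3l_int (l : ℝ) (hl : 0 < l) :
    ∫⁻ t in Ioc 0 l, ENNReal.ofReal ((1 - t / l) ^ 2) = ENNReal.ofReal (l / 3) :=
  M3s_int l hl

theorem M3l_len_o {K : Set (ℝ × (ℝ × ℝ))} (hK : IsCompact K) (hc : Convex ℝ K) {z0 l : ℝ}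
    {o : ℝ × ℝ} (hl : 0 ≤ l) (h0 : (z0, o) ∈ K) (h1 : (z0 + l, o) ∈ K) :
    l ≤ Cap.len K o := by
  rcases hl.eq_or_lt with hl0 | hl
  · rw [← hl0]; exact Cap.len_nonneg o
  have hsub : Icc z0 (z0 + l) ⊆ Cap.fib K o := by
    intro ζ hζ
    have hθ0 : 0 ≤ (ζ - z0) / l := div_nonneg (by linarith [hζ.1]) hl.le
    have hθ1 : (ζ - z0) / l ≤ 1 := by rw [div_le_one hl]; linarith [hζ.2]
    have hmem := hc h0 h1 (sub_nonneg.2 hθ1) hθ0 (by ring)
    have he : (1 - (ζ - z0) / l) • ((z0, o) : ℝ × (ℝ × ℝ))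
        + ((ζ - z0) / l) • ((z0 + l, o) : ℝ × (ℝ × ℝ)) = (ζ, o) := by
      refine Prod.ext ?_ ?_
      · simp only [Prod.fst_add, Prod.smul_fst, smul_eq_mul]
        field_simp
        ring
      · simp only [Prod.snd_add, Prod.smul_snd]
        rw [← add_smul, sub_add_cancel, one_smul]
    rw [he] at hmem
    exact hmem
  have hv : ENNReal.ofReal l ≤ volume (Cap.fib K o) := by
    have := measure_mono (μ := volume) hsub
    rwa [Real.volume_Icc, add_sub_cancel_left] at this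
  exact (ENNReal.ofReal_le_iff_le_toReal (Cap.fib_fin hK o)).1 hv

theorem M3l_lev_ge {K : Set (ℝ × (ℝ × ℝ))} (hK : IsCompact K) (hc : Convex ℝ K) {z0 l : ℝ}
    {o : ℝ × ℝ} (hl : 0 < l) (h0 : (z0, o) ∈ K) (h1 : (z0 + l, o) ∈ K) {t : ℝ} (ht0 : 0 ≤ t)
    (ht : t ≤ l) :
    (fun q : ℝ × ℝ => o + (1 - t / l) • (q - o)) '' (Prod.snd '' K) ⊆ Cap.lev K t := by
  have hPv : Convex ℝ (Prod.snd '' K) := by
    rintro _ ⟨k1, hk1, rfl⟩ _ ⟨k2, hk2, rfl⟩ a b ha hb hab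
    exact ⟨a • k1 + b • k2, hc hk1 hk2 ha hb hab, rfl⟩
  have hoP : o ∈ Prod.snd '' K := ⟨(z0, o), h0, rfl⟩
  have hlo := M3l_len_o hK hc hl.le h0 h1
  rintro _ ⟨q, hq, rfl⟩
  have hθ0 : 0 ≤ 1 - t / l := by rw [sub_nonneg, div_le_one hl]; exact ht
  have hθ1 : 1 - t / l ≤ 1 := by linarith [div_nonneg ht0 hl.le]
  have he : o + (1 - t / l) • (q - o) = (1 - (1 - t / l)) • o + (1 - t / l) • q := by
    module
  show o + (1 - t / l) • (q - o) ∈ Cap.lev K t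
  rw [he]
  refine ⟨hPv hoP hq (by linarith) hθ0 (by ring), ?_⟩
  have hconc := Cap.len_concave hK hc hoP hq (1 - t / l) hθ0 hθ1
  have h3 : t ≤ (1 - (1 - t / l)) * Cap.len K o := by
    have e : 1 - (1 - t / l) = t / l := by ring
    rw [e]
    calc t = t / l * l := by field_simp
      _ ≤ t / l * Cap.len K o := mul_le_mul_of_nonneg_left hlo (div_nonneg ht0 hl.le)
  have h4 : 0 ≤ (1 - t / l) * Cap.len K q := mul_nonneg hθ0 (Cap.len_nonneg q)
  linarith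

theorem M3l_model_le {K : Set (ℝ × (ℝ × ℝ))} (hK : IsCompact K) (hc : Convex ℝ K) {z0 l : ℝ}
    {o : ℝ × ℝ} (hl : 0 ≤ l) (h0 : (z0, o) ∈ K) (h1 : (z0 + l, o) ∈ K) :
    ENNReal.ofReal l * volume (Prod.snd '' K) ≤ 3 * volume K := by
  rcases hl.eq_or_lt with hl0 | hl
  · rw [← hl0]; simp
  have hPfin : volume (Prod.snd '' K) ≠ ⊤ := (hK.image continuous_snd).measure_lt_top.ne
  have hbase : ∀ t' ∈ Ioi (0 : ℝ),
      M3s_phi l (volume (Prod.snd '' K)) t' ≤ volume (Cap.lev K t') := by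
    intro t' ht'
    unfold M3s_phi
    by_cases hm : t' ∈ Ioc 0 l
    · rw [indicator_of_mem hm, ← M3s_hom_vol]
      exact measure_mono (M3l_lev_ge hK hc hl h0 h1 (le_of_lt ht') hm.2)
    · rw [indicator_of_notMem hm]; exact zero_le
  have hint : ENNReal.ofReal (l / 3) * volume (Prod.snd '' K) ≤ volume K := by
    rw [Cap.vol_eq hK, ← M3s_phi_int l hl _ hPfin]
    exact setLIntegral_mono' measurableSet_Ioi hbase
  have h3 : ENNReal.ofReal l = 3 * ENNReal.ofReal (l / 3) := by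
    rw [show (3 : ℝ≥0∞) = ENNReal.ofReal 3 by simp, ← ENNReal.ofReal_mul (by norm_num)]
    congr 1
    ring
  rw [h3, mul_assoc]
  exact mul_le_mul_right hint 3

end Vale.Agent.Lib.P243.R3.H47
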